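import Crest.Agent.X262.Mv99.Move
import Crest.Agent.X262.Top.Defs

/-!
# Row 262, G4 / MV (helper99), part 3: the carrier and the statements

`S : Hyp 3 Γ F` a quartic surface which misses `[0 : 0 : 0 : 1]` (`Qt Γ`); it is covered by the three
charts `U S a = {y a ≠ 0}`, `a = 0, 1, 2`.

* `oR x`, `nS M x` : local ring, local sections of the line bundle `M`;
* `Coc S η`        : the rational vector fields `η a` have regular differences;
* `Lifts S η M`    : `M` lifts to the first order deformation `η`;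
* `Dfm S M`        : a formal deformation of `(S, M)` inside the constant sheaf `F⟦X⟧`;
* `R1 x ω`, `Conn S M α`, `ham b ω` : regular one-forms, connections, Hamiltonian fields;
* `MvStmt` (99), `BpStmt` (94), `KapStmt` (99, from `BpStmt`).
-/

set_option autoImplicit false

open PowerSeries
open scoped KaehlerDifferential

noncomputable section

namespace Crest.Agent.X262.Mv99

open Crest.Agent.X277 Crest.Agent.X277.Lef Crest.Agent.X277.AN.G1 Crest.Agent.X277.BD
open Crest.Agent.X277.BD.Br (On oP kP At)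
open Crest.Agent.X277.Cns (Ov)
open Crest.Agent.X262.Top (Hyp)

variable {F : Type} [Field F] [Algebra ℂ F]

section Loc

variable {P : PModel ℂ F}

/-- the local ring -/
abbrev oR (x : Pts P) : Subring F := (lp x).O.toSubring

/-- the local sections of a line bundle -/
def nS (M : BD ℂ F) (x : Pts P) : AddSubgroup F where
  carrier := {z | ∀ V : RZ ℂ F, Ov x V.1 → V.v z ≤ M.val V}
  zero_mem' V _ := by simp
  add_mem' ha hb V hV := (V.v.map_add _ _).trans (max_le (ha V hV) (hb V hV))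
  neg_mem' ha V hV := by rw [Valuation.map_neg]; exact ha V hV


theorem mem_nS_iff {M : BD ℂ F} {x : Pts P} {g z : F} (h : At M x g) :
    z ∈ nS M x ↔ z / g ∈ oR x := h.div_mem_iff.symm

/-- one-forms which are regular at `x` -/
def R1 (x : Pts P) : Submodule ℂ Ω[F⁄ℂ] := Submodule.span ℂ
  {η : Ω[F⁄ℂ] | ∃ a ∈ (lp x).O, ∃ c ∈ (lp x).O, η = a • KaehlerDifferential.D ℂ F c}


/-- vector fields which are regular at `x` -/
def RV (x : Pts P) (D : Derivation ℂ F F) : Prop := ∀ a ∈ oR x, D a ∈ oR x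

end Loc



/-- a quartic form in which `x₃ ^ 4` occurs -/
def Qt (Γ : MvPolynomial (Fin 4) ℂ) : Prop :=
  Γ.IsHomogeneous 4 ∧ MvPolynomial.coeff (Finsupp.single 3 4) Γ ≠ 0 ∧
    ∀ p : Fin 4 → ℂ, p ≠ 0 → MvPolynomial.eval p Γ = 0 →
      ∃ i, MvPolynomial.eval p (MvPolynomial.pderiv i Γ) ≠ 0

variable {Γ : MvPolynomial (Fin 4) ℂ} (S : Hyp 3 Γ F)

/-- the three charts -/
def U (a : Fin 3) : Set (Pts S.P) := pat S.P a.castSucc

/-- a first order deformation -/
def Coc (η : Fin 3 → Derivation ℂ F F) : Prop :=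
  ∀ a b, ∀ x ∈ U S a, x ∈ U S b → RV x (η a - η b)

/-- the line bundle `M` lifts to the first order deformation `η` -/
def Lifts (η : Fin 3 → Derivation ℂ F F) (M : BD ℂ F) : Prop :=
  ∃ r : Fin 3 → F, ∀ a b, ∀ x ∈ U S a, x ∈ U S b → Op (oR x) (nS M x) (η a - η b) (r a - r b)

/-- connections on the charts -/
def Conn (M : BD ℂ F) (α : Fin 3 → Ω[F⁄ℂ]) : Prop :=
  ∀ a, ∀ x ∈ U S a, ∀ g, At M x g → α a - g⁻¹ • KaehlerDifferential.D ℂ F g ∈ R1 x

/-- a formal deformation of `(S, M)`: on the chart `a` the deformed local ring at `x` is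
`(Φ a).ψ (O_x⟦X⟧)` and the deformed local sections are `(Φ a).act (M_x⟦X⟧)` -/
structure Dfm (M : BD ℂ F) where
  /-- the moves -/
  Φ : Fin 3 → Mv ℂ F
  ring : ∀ a b, ∀ x ∈ U S a, x ∈ U S b →
    (serR (oR x)).map (Φ a).ψ = (serR (oR x)).map (Φ b).ψ
  sec : ∀ a b, ∀ x ∈ U S a, x ∈ U S b →
    (ser (nS M x)).map (Φ a).act = (ser (nS M x)).map (Φ b).act
  /-- first order terms -/
  η : Fin 3 → Derivation ℂ F F
  /-- first order terms of the multipliers -/
  r : Fin 3 → F
  df : ∀ a, Mv.Df 1 (Φ a) Mv.one (η a) (r a)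

/-- MV: a first order deformation of `(S, M)` is the first term of a formal one, provided that `M`
is obstructed in some direction -/
def MvStmt : Prop := ∀ (F : Type) [Field F] [Algebra ℂ F] (Γ : MvPolynomial (Fin 4) ℂ)
  (S : Hyp 3 Γ F) (_ : Module.Basis (Fin 2) F Ω[F⁄ℂ]), Qt Γ → ∀ M ∈ On S.P,
  (∃ η₀, Coc S η₀ ∧ ¬ Lifts S η₀ M) → ∀ η, Lifts S η M →
    ∃ D : Dfm S M, ∀ a, D.η a = η a - η 2


/-- a very general direction -/
def KapStmt : Prop := ∀ (F : Type) [Field F] [Algebra ℂ F] [Algebra.EssFiniteType ℂ F]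
  (Γ : MvPolynomial (Fin 4) ℂ) (S : Hyp 3 Γ F) (_ : Module.Basis (Fin 2) F Ω[F⁄ℂ]), Qt Γ →
  ∀ M ∈ On S.P, bnum [M, M] ≠ 0 → ∃ D : Dfm S M, ∀ N ∈ On S.P, Lifts S D.η N →
    ∀ N' ∈ On S.P, bnum [M, M] * bnum [N, N'] = bnum [N, M] * bnum [M, N']

end Crest.Agent.X262.Mv99
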