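import Crest.Agent.X262.Mv99.Move
import Crest.Agent.X262.Mv99.Defs
import Crest.Agent.X277.Cns.Prod
import Crest.Agent.X277.Cns.Lift

-- ▼ part X262/Mv99/Inv
section

/-!
# Row 262, G4 / MV (helper99), part 6: extension from constants, inverses, powers, localisation

* `extd φ`, `Mv.ofHom`, `Mv.hom` : moves are given by their values on constants;
* `Mv.inv`, `Mv.Same`, `same_iff_pres` : two moves define the same structure;
* `Mv.pow`; `prin A g` the principal module, `pres_prin`;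
* `ψ_mem_of_loc` : localisation.
-/

set_option autoImplicit false

open PowerSeries

noncomputable section

namespace Crest.Agent.X262.Mv99

section Extd

variable {L R : Type*} [CommRing L] [CommRing R]

theorem dvd_trunc (n : ℕ) (f : L⟦X⟧) : X ^ n ∣ f - (trunc n f : L⟦X⟧) := by
  rw [X_pow_dvd_iff]
  intro i hi
  rw [map_sub, Polynomial.coeff_coe, coeff_trunc, if_pos hi, sub_self]

theorem ev_dvd (φ : L →+* R⟦X⟧) {n : ℕ} {p q : Polynomial L}
    (h : X ^ n ∣ (p : L⟦X⟧) - (q : L⟦X⟧)) :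
    X ^ n ∣ Polynomial.eval₂RingHom φ X p - Polynomial.eval₂RingHom φ X q := by
  have h1 : Polynomial.X ^ n ∣ p - q := by
    rw [Polynomial.X_pow_dvd_iff]
    intro d hd
    have := X_pow_dvd_iff.1 h d hd
    rwa [map_sub, Polynomial.coeff_coe, Polynomial.coeff_coe, ← Polynomial.coeff_sub] at this
  have := map_dvd (Polynomial.eval₂RingHom φ X) h1
  simpa using this

theorem extd_aux (φ : L →+* R⟦X⟧) {n : ℕ} {f : L⟦X⟧} {p : Polynomial L}
    (h : X ^ n ∣ f - (p : L⟦X⟧)) :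
    X ^ n ∣ lim (fun j => Polynomial.eval₂RingHom φ X (trunc j f)) -
      Polynomial.eval₂RingHom φ X p := by
  have h1 := dvd_lim (s := fun j => Polynomial.eval₂RingHom φ X (trunc j f)) (fun j => ev_dvd φ (by
    have := dvd_sub (dvd_trunc j f) ((pow_dvd_pow _ j.le_succ).trans (dvd_trunc (j + 1) f))
    simpa using this)) n
  have h2 := ev_dvd φ (n := n) (p := trunc n f) (q := p) (by
    simpa using dvd_sub h (dvd_trunc n f))
  simpa using dvd_add h1 h2

/-- the continuous extension of a homomorphism from the constants -/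
def extd (φ : L →+* R⟦X⟧) : L⟦X⟧ →+* R⟦X⟧ where
  toFun f := lim fun j => Polynomial.eval₂RingHom φ X (trunc j f)
  map_one' := eq_of_dvd fun n => by simpa using extd_aux φ (n := n) (f := 1) (p := 1) (by simp)
  map_zero' := eq_of_dvd fun n => by simpa using extd_aux φ (n := n) (f := 0) (p := 0) (by simp)
  map_mul' f g := eq_of_dvd fun n => by
    have h1 := extd_aux φ (dvd_trunc n f)
    have h2 := extd_aux φ (dvd_trunc n g)
    have h3 := extd_aux φ (n := n) (f := f * g) (p := trunc n f * trunc n g) (by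
      convert dvd_add ((dvd_trunc n f).mul_right g) ((dvd_trunc n g).mul_left (trunc n f)) using 1
      push_cast
      ring)
    rw [map_mul] at h3
    convert dvd_sub (dvd_sub h3 (h1.mul_right
      (lim fun j => Polynomial.eval₂RingHom φ X (trunc j g))))
      (h2.mul_left (Polynomial.eval₂RingHom φ X (trunc n f))) using 1
    ring
  map_add' f g := eq_of_dvd fun n => by
    have h1 := extd_aux φ (dvd_trunc n f)
    have h2 := extd_aux φ (dvd_trunc n g)
    have h3 := extd_aux φ (n := n) (f := f + g) (p := trunc n f + trunc n g) (by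
      convert dvd_add (dvd_trunc n f) (dvd_trunc n g) using 1
      push_cast
      ring)
    rw [map_add] at h3
    convert dvd_sub (dvd_sub h3 h1) h2 using 1
    ring

theorem extd_coe (φ : L →+* R⟦X⟧) (p : Polynomial L) :
    extd φ p = Polynomial.eval₂RingHom φ X p :=
  eq_of_dvd fun n => extd_aux φ (n := n) (f := p) (p := p) (by simp)

@[simp] theorem extd_C (φ : L →+* R⟦X⟧) (a : L) : extd φ (C a) = φ a := by
  simpa using extd_coe φ (Polynomial.C a)

@[simp] theorem extd_X (φ : L →+* R⟦X⟧) : extd φ X = X := by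
  simpa using extd_coe φ Polynomial.X

/-- homomorphisms which fix `X` are determined by their values on constants -/
theorem hom_ext {ψ ψ' : L⟦X⟧ →+* R⟦X⟧} (h : ψ X = X) (h' : ψ' X = X)
    (hC : ∀ a, ψ (C a) = ψ' (C a)) (f : L⟦X⟧) : ψ f = ψ' f := by
  refine eq_of_dvd fun n => ?_
  induction n generalizing f with
  | zero => simp
  | succ n ih =>
    obtain ⟨w, hw⟩ := ih (sh f)
    refine ⟨w, ?_⟩
    conv_lhs => rw [eq_C_add f]
    simp only [map_add, map_mul, h, h', hC]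
    linear_combination X * hw

theorem map_mem_ser {φ : L →+* R} {M : AddSubgroup L} {M' : AddSubgroup R}
    (h : ∀ a ∈ M, φ a ∈ M') {f : L⟦X⟧} (hf : f ∈ ser M) : PowerSeries.map φ f ∈ ser M' :=
  fun i => by rw [coeff_map]; exact h _ (hf i)

theorem const_map (φ : L →+* R) (f : L⟦X⟧) :
    constantCoeff (PowerSeries.map φ f) = φ (constantCoeff f) := by
  rw [← coeff_zero_eq_constantCoeff_apply, coeff_map, coeff_zero_eq_constantCoeff_apply]

/-- inverses in `A⟦X⟧` -/
theorem exists_inv_serR {A : Subring L} {f : L⟦X⟧} (hf : f ∈ serR A) {c : L} (hc : c ∈ A)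
    (h : constantCoeff f * c = 1) : ∃ g ∈ serR A, f * g = 1 := by
  have h1 : XL (AddMonoidHom.mulLeft (f * C c)) := fun z => by
    simp only [AddMonoidHom.coe_mulLeft]
    ring
  have h2 := (serR A).mul_mem hf (C_mem_serR hc)
  obtain ⟨g, hg, e⟩ := h1.surj (fun a => by simp [h]) (M := A.toAddSubgroup)
    (fun a ha => (serR A).mul_mem h2 (C_mem_serR ha)) (serR A).one_mem
  exact ⟨C c * g, (serR A).mul_mem (C_mem_serR hc) hg, by rw [← mul_assoc]; exact e⟩

end Extd

variable {k L : Type*} [CommRing k] [CommRing L] [Algebra k L]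

namespace Mv

/-- the values on constants -/
def hom (m : Mv k L) : L →ₐ[k] L⟦X⟧ :=
  { m.ψ.comp C with
    commutes' := fun c => (m.ψk c).trans PowerSeries.algebraMap_apply.symm }

@[simp] theorem hom_apply (m : Mv k L) (a : L) : m.hom a = m.ψ (C a) := rfl

/-- a move from its values on constants -/
def ofHom (φ : L →ₐ[k] L⟦X⟧) (h0 : ∀ a, constantCoeff (φ a) = a) (u : L⟦X⟧)
    (u0 : constantCoeff u = 1) : Mv k L where
  ψ := extd φ
  u := u
  ψX := extd_X _
  ψ0 a := by rw [extd_C]; exact h0 a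
  ψk c := by rw [extd_C]; exact (φ.commutes c).trans PowerSeries.algebraMap_apply
  u0 := u0

theorem ofHom_C (φ : L →ₐ[k] L⟦X⟧) (h0 : ∀ a, constantCoeff (φ a) = a) (u : L⟦X⟧)
    (u0 : constantCoeff u = 1) (a : L) : (ofHom φ h0 u u0).ψ (C a) = φ a := extd_C _ a

/-- the inverse move -/
def inv (m : Mv k L) : Mv k L where
  ψ := m.equiv.symm
  u := m.equiv.symm (m.isUnit_u.unit⁻¹ : (L⟦X⟧)ˣ)
  ψX := m.equiv.symm_apply_eq.2 m.ψX.symm
  ψ0 a := by
    have := m.const (m.equiv.symm (C a))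
    rw [← equiv_apply, RingEquiv.apply_symm_apply, constantCoeff_C] at this
    exact this.symm
  ψk c := m.equiv.symm_apply_eq.2 (m.ψk c).symm
  u0 := by
    have := m.const (m.equiv.symm (m.isUnit_u.unit⁻¹ : (L⟦X⟧)ˣ))
    rw [← equiv_apply, RingEquiv.apply_symm_apply] at this
    rw [← this]
    have h2 := congrArg constantCoeff m.isUnit_u.mul_val_inv
    rwa [map_mul, m.u0, one_mul, map_one] at h2

theorem ψ_inv (m : Mv k L) (f : L⟦X⟧) : m.ψ (m.inv.ψ f) = f := m.equiv.apply_symm_apply f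

theorem inv_ψ (m : Mv k L) (f : L⟦X⟧) : m.inv.ψ (m.ψ f) = f := m.equiv.symm_apply_apply f

theorem comp_inv (m : Mv k L) : m.comp m.inv = one :=
  ext' (fun _ => m.ψ_inv _) (by
    change m.u * m.equiv (m.equiv.symm _) = 1
    rw [RingEquiv.apply_symm_apply, m.isUnit_u.mul_val_inv])

theorem comp_assoc' (a b c : Mv k L) : (a.comp b).comp c = a.comp (b.comp c) :=
  ext' (fun _ => rfl) (by simp [mul_assoc])

theorem one_comp' (m : Mv k L) : one.comp m = m := ext' (fun _ => rfl) (by simp)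


theorem comp_inv_comp (m m' : Mv k L) : m'.comp (m'.inv.comp m) = m := by
  rw [← comp_assoc', comp_inv, one_comp']

theorem act_inj (m : Mv k L) : Function.Injective m.act := m.act_xl.inj m.act0

/-- two moves define the same deformation of `A` and of `N` -/
def Same (m m' : Mv k L) (A : Subring L) (N : AddSubgroup L) : Prop :=
  (serR A).map m.ψ = (serR A).map m'.ψ ∧ (ser N).map m.act = (ser N).map m'.act

variable {m m' d : Mv k L} {A : Subring L} {N : AddSubgroup L}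

theorem same_comp_iff : Same (m.comp d) m A N ↔ d.Pres A N := by
  constructor
  · rintro ⟨h1, h2⟩
    refine ⟨fun a ha => ?_, fun z hz => ?_⟩
    · have : (m.comp d).ψ (C a) ∈ (serR A).map m.ψ := h1 ▸ ⟨_, C_mem_serR ha, rfl⟩
      obtain ⟨g, hg, e⟩ := this
      rwa [← m.bij.1 e]
    · have : (m.comp d).act (C z) ∈ (ser N).map m.act := h2 ▸ ⟨_, C_mem_ser hz, rfl⟩
      obtain ⟨g, hg, e⟩ := this
      rw [comp_act] at e
      rwa [← m.act_inj e]
  · intro h
    constructor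
    · ext f
      simp only [Subring.mem_map, comp_ψ]
      constructor
      · rintro ⟨g, hg, rfl⟩
        exact ⟨_, h.ψ_mem hg, rfl⟩
      · rintro ⟨g, hg, rfl⟩
        obtain ⟨g', h1, rfl⟩ := h.ψ_surj hg
        exact ⟨g', h1, rfl⟩
    · ext f
      simp only [AddSubgroup.mem_map, comp_act]
      constructor
      · rintro ⟨g, hg, rfl⟩
        exact ⟨_, h.act_mem hg, rfl⟩
      · rintro ⟨g, hg, rfl⟩
        obtain ⟨g', h1, rfl⟩ := h.act_surj hg
        exact ⟨g', h1, rfl⟩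

theorem same_iff_pres : Same m m' A N ↔ (m'.inv.comp m).Pres A N := by
  rw [← same_comp_iff (m := m'), comp_inv_comp]

theorem Same.refl (m : Mv k L) (A : Subring L) (N : AddSubgroup L) : Same m m A N := ⟨rfl, rfl⟩

theorem Same.symm (h : Same m m' A N) : Same m' m A N := ⟨h.1.symm, h.2.symm⟩

theorem Same.trans (h : Same m m' A N) (h' : Same m' d A N) : Same m d A N :=
  ⟨h.1.trans h'.1, h.2.trans h'.2⟩

theorem Same.exists (h : Same m m' A N) : ∃ d : Mv k L, d.Pres A N ∧ m = m'.comp d :=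
  ⟨_, same_iff_pres.1 h, (comp_inv_comp m m').symm⟩

/-- the move on the `j`-th power of the line bundle -/
def pow (m : Mv k L) (j : ℕ) : Mv k L :=
  { m with u := m.u ^ j, u0 := by rw [map_pow, m.u0, one_pow] }

@[simp] theorem pow_ψ (m : Mv k L) (j : ℕ) : (m.pow j).ψ = m.ψ := rfl

@[simp] theorem pow_u (m : Mv k L) (j : ℕ) : (m.pow j).u = m.u ^ j := rfl

theorem pow_comp (m m' : Mv k L) (j : ℕ) : (m.comp m').pow j = (m.pow j).comp (m'.pow j) :=
  ext' (fun _ => rfl) (by simp [mul_pow])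

theorem pow_act (m : Mv k L) (j : ℕ) (z : L⟦X⟧) : (m.pow j).act (z ^ j) = m.act z ^ j := by
  simp [act_apply, mul_pow]

theorem pow_act_mul (m : Mv k L) (i j : ℕ) (z w : L⟦X⟧) :
    (m.pow (i + j)).act (z * w) = (m.pow i).act z * (m.pow j).act w := by
  simp only [act_apply, pow_u, pow_ψ, map_mul, pow_add]
  ring

/-- localisation: `O` consists of fractions `a / c` with `a, c ∈ B` and `c` a unit of `O` -/
theorem ψ_mem_of_loc {B : Set L} {O : Subring L} (hB : ∀ a ∈ B, m.ψ (C a) ∈ serR O)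
    (hO : ∀ f ∈ O, ∃ a ∈ B, ∃ c ∈ B, ∃ c' ∈ O, c * c' = 1 ∧ f * c = a) {f : L} (hf : f ∈ O) :
    m.ψ (C f) ∈ serR O := by
  obtain ⟨a, ha, c, hc, c', hc', h1, h2⟩ := hO f hf
  obtain ⟨g, hg, e⟩ := exists_inv_serR (hB c hc) hc' (by rw [m.ψ0, h1])
  have : m.ψ (C f) = m.ψ (C a) * g := by
    rw [← h2, map_mul, map_mul, mul_assoc, e, mul_one]
  rw [this]
  exact (serR O).mul_mem (hB a ha) hg

theorem ψ_mem_of_adjoin {s : Set L} {O : Subalgebra k L}
    (hs : ∀ a ∈ s, m.ψ (C a) ∈ serR O.toSubring) {f : L} (hf : f ∈ Algebra.adjoin k s) :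
    m.ψ (C f) ∈ serR O.toSubring := by
  induction hf using Algebra.adjoin_induction with
  | mem x hx => exact hs x hx
  | algebraMap c => rw [m.ψk]; exact C_mem_serR (O.algebraMap_mem c)
  | add x y _ _ hx hy => rw [map_add, map_add]; exact add_mem hx hy
  | mul x y _ _ hx hy => rw [map_mul, map_mul]; exact mul_mem hx hy

end Mv

section Prin

variable {k L : Type*} [CommRing k] [Field L] [Algebra k L] {A : Subring L} {N : AddSubgroup L}
  {g : L}

theorem mem_ser_prin (hg : g ≠ 0) (hN : ∀ z, z ∈ N ↔ z / g ∈ A) {f : L⟦X⟧} :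
    f ∈ ser N ↔ ∃ w ∈ serR A, f = C g * w := by
  constructor
  · intro hf
    refine ⟨C g⁻¹ * f, fun i => ?_, by rw [← mul_assoc, ← map_mul, mul_inv_cancel₀ hg]; simp⟩
    rw [coeff_C_mul, inv_mul_eq_div]
    exact (hN _).1 (hf i)
  · rintro ⟨w, hw, rfl⟩ i
    rw [hN, coeff_C_mul, mul_div_cancel_left₀ _ hg]
    exact hw i

/-- preservation of a principal module -/
theorem pres_prin (hg : g ≠ 0) (hN : ∀ z, z ∈ N ↔ z / g ∈ A) {m : Mv k L} :
    m.Pres A N ↔ (∀ a ∈ A, m.ψ (C a) ∈ serR A) ∧ ∃ w ∈ serR A, m.act (C g) = C g * w := by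
  refine and_congr_right fun h => ⟨fun h' => ?_, ?_⟩
  · exact (mem_ser_prin hg hN).1 (h' g ((hN g).2 (by rw [div_self hg]; exact A.one_mem)))
  · rintro ⟨w, hw, e⟩ z hz
    refine (mem_ser_prin hg hN).2 ⟨m.ψ (C (z / g)) * w, mul_mem (h _ ((hN z).1 hz)) hw, ?_⟩
    have : C z = C (z / g) * C g := by rw [← map_mul, div_mul_cancel₀ _ hg]
    rw [this, m.act_mul, e]
    ring

/-- the deformed principal module -/
theorem mem_map_act (hg : g ≠ 0) (hN : ∀ z, z ∈ N ↔ z / g ∈ A) {m : Mv k L} {f : L⟦X⟧} :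
    f ∈ (ser N).map m.act ↔ ∃ w ∈ (serR A).map m.ψ, f = m.act (C g) * w := by
  constructor
  · rintro ⟨z, hz, rfl⟩
    obtain ⟨w, hw, rfl⟩ := (mem_ser_prin hg hN).1 hz
    exact ⟨_, ⟨w, hw, rfl⟩, by rw [mul_comm, m.act_mul, mul_comm]⟩
  · rintro ⟨_, ⟨w, hw, rfl⟩, rfl⟩
    exact ⟨C g * w, (mem_ser_prin hg hN).2 ⟨w, hw, rfl⟩, by rw [mul_comm, m.act_mul, mul_comm]⟩

theorem Mv.Pres.pow (hg : g ≠ 0) (hN : ∀ z, z ∈ N ↔ z / g ∈ A) {j : ℕ} {N' : AddSubgroup L}
    (hN' : ∀ z, z ∈ N' ↔ z / g ^ j ∈ A) {m : Mv k L} (h : m.Pres A N) : (m.pow j).Pres A N' := by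
  obtain ⟨h1, w, hw, e⟩ := (pres_prin hg hN).1 h
  exact (pres_prin (pow_ne_zero j hg) hN').2 ⟨h1, w ^ j, pow_mem hw j, by
    rw [map_pow, m.pow_act, e, mul_pow]⟩

theorem Mv.Same.pow (hg : g ≠ 0) (hN : ∀ z, z ∈ N ↔ z / g ∈ A) {j : ℕ} {N' : AddSubgroup L}
    (hN' : ∀ z, z ∈ N' ↔ z / g ^ j ∈ A) {m m' : Mv k L} (h : m.Same m' A N) :
    (m.pow j).Same (m'.pow j) A N' := by
  obtain ⟨d, hd, rfl⟩ := h.exists
  rw [Mv.pow_comp]
  exact Mv.same_comp_iff.2 (hd.pow hg hN hN')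

end Prin

end Crest.Agent.X262.Mv99
end
end

-- ▼ part X262/Mv99/Ten

/-!
# Row 262, G4 / MV (helper99), part 7: products of moves

* `ten h m m'`        : the move on the product field (T1);
* `ten_swap`          : equivariance (T2);
* `same_nsmul`        : powers of the line bundle (T3);
* `pres_ten`, `same_ten` : the product of two deformations (T4).
-/

set_option autoImplicit false

open PowerSeries

noncomputable section

namespace Crest.Agent.X262.Mv99

open Crest.Agent.X277 Crest.Agent.X277.Lef Crest.Agent.X277.AN.G1 Crest.Agent.X277.BD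
open Crest.Agent.X277.BD.Br (On oP kP At)
open Crest.Agent.X277.Cns (pf_isFr pf_ext)
open Crest.Agent.R274.Prod1_134 (IsPF)

section Ten

variable {k F L E : Type*} [Field k] [Field F] [Algebra k F] [Field L] [Algebra k L] [Field E]
  [Algebra k E] {α : F →ₐ[k] E} {β : L →ₐ[k] E} (h : IsPF α β)

include h in
theorem exists_ten (m : Mv k F) (m' : Mv k L) : ∃ φ : E →ₐ[k] E⟦X⟧,
    (∀ a, φ (α a) = PowerSeries.map (α : F →+* E) (m.ψ (C a))) ∧
    (∀ b, φ (β b) = PowerSeries.map (β : L →+* E) (m'.ψ (C b))) ∧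
    ∀ x, constantCoeff (φ x) = x := by
  let g := Algebra.TensorProduct.productMap ((PowerSeries.mapAlgHom α).comp m.hom)
    ((PowerSeries.mapAlgHom β).comp m'.hom)
  have h1 : ∀ z, constantCoeff (g z) = Algebra.TensorProduct.productMap α β z := by
    intro z
    induction z with
    | zero => simp
    | tmul a b => simp [g, mapAlgHom_apply, const_map, m.ψ0, m'.ψ0]
    | add x y hx hy => simp only [map_add, hx, hy]
  have h2 : ∀ z, z ≠ 0 → IsUnit (g z) := fun z hz => by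
    rw [isUnit_iff_constantCoeff, h1]
    exact ((pf_isFr h).map_ne hz).isUnit
  obtain ⟨γ, hγ⟩ := (pf_isFr h).exists_lift g h2
  refine ⟨γ, fun a => ?_, fun b => ?_, fun x => ?_⟩
  · simpa [g, mapAlgHom_apply] using hγ (a ⊗ₜ 1)
  · simpa [g, mapAlgHom_apply] using hγ (1 ⊗ₜ b)
  · obtain ⟨a, b, hb, rfl⟩ := (pf_isFr h).frac' x
    have h3 := (pf_isFr h).map_ne hb
    have h4 := congrArg (fun z => constantCoeff (γ z)) (div_mul_cancel₀
      (Algebra.TensorProduct.productMap α β a) h3)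
    simp only [map_mul, hγ, h1] at h4
    exact (eq_div_iff h3).2 h4

/-- the product of two moves -/
def ten (m : Mv k F) (m' : Mv k L) : Mv k E :=
  Mv.ofHom (exists_ten h m m').choose (exists_ten h m m').choose_spec.2.2
    (PowerSeries.map (α : F →+* E) m.u * PowerSeries.map (β : L →+* E) m'.u)
    (by rw [map_mul, const_map, const_map, m.u0, m'.u0, map_one, map_one, one_mul])

variable (m m₂ : Mv k F) (m' m₂' : Mv k L)

theorem ten_u : (ten h m m').u =
    PowerSeries.map (α : F →+* E) m.u * PowerSeries.map (β : L →+* E) m'.u := rfl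

theorem ten_C_left (a : F) :
    (ten h m m').ψ (C (α a)) = PowerSeries.map (α : F →+* E) (m.ψ (C a)) :=
  (Mv.ofHom_C _ _ _ _ _).trans ((exists_ten h m m').choose_spec.1 a)

theorem ten_C_right (b : L) :
    (ten h m m').ψ (C (β b)) = PowerSeries.map (β : L →+* E) (m'.ψ (C b)) :=
  (Mv.ofHom_C _ _ _ _ _).trans ((exists_ten h m m').choose_spec.2.1 b)

/-- (T1) -/
theorem ten_left (f : F⟦X⟧) : (ten h m m').ψ (PowerSeries.map (α : F →+* E) f) =
    PowerSeries.map (α : F →+* E) (m.ψ f) :=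
  hom_ext (ψ := (ten h m m').ψ.comp (PowerSeries.map (α : F →+* E)))
    (ψ' := (PowerSeries.map (α : F →+* E)).comp m.ψ) (by simp [Mv.ψX]) (by simp [Mv.ψX])
    (fun a => by simpa using ten_C_left h m m' a) f

/-- (T1) -/
theorem ten_right (f : L⟦X⟧) : (ten h m m').ψ (PowerSeries.map (β : L →+* E) f) =
    PowerSeries.map (β : L →+* E) (m'.ψ f) :=
  hom_ext (ψ := (ten h m m').ψ.comp (PowerSeries.map (β : L →+* E)))
    (ψ' := (PowerSeries.map (β : L →+* E)).comp m'.ψ) (by simp [Mv.ψX]) (by simp [Mv.ψX])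
    (fun a => by simpa using ten_C_right h m m' a) f

theorem ten_act (f : F⟦X⟧) (g : L⟦X⟧) :
    (ten h m m').act (PowerSeries.map (α : F →+* E) f * PowerSeries.map (β : L →+* E) g) =
      PowerSeries.map (α : F →+* E) (m.act f) * PowerSeries.map (β : L →+* E) (m'.act g) := by
  simp only [Mv.act_apply, map_mul, ten_left, ten_right, ten_u]
  ring

include h in
theorem mv_ext {a b : Mv k E} (h1 : ∀ x, a.ψ (C (α x)) = b.ψ (C (α x)))
    (h2 : ∀ x, a.ψ (C (β x)) = b.ψ (C (β x))) (hu : a.u = b.u) : a = b :=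
  Mv.ext' (fun x => AlgHom.congr_fun (pf_ext h (γ := a.hom) (γ' := b.hom) h1 h2) x) hu

theorem ten_comp : ten h (m.comp m₂) (m'.comp m₂') = (ten h m m').comp (ten h m₂ m₂') := by
  refine mv_ext h (fun x => ?_) (fun x => ?_) ?_
  · rw [ten_C_left, Mv.comp_ψ, Mv.comp_ψ, ten_C_left, ten_left]
  · rw [ten_C_right, Mv.comp_ψ, Mv.comp_ψ, ten_C_right, ten_right]
  · simp only [ten_u, Mv.comp_u, map_mul, ten_left, ten_right]
    ring



end Ten

section Swap

variable {k F E : Type*} [Field k] [Field F] [Algebra k F] [Field E] [Algebra k E]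
  {α β : F →ₐ[k] E} (h : IsPF α β) {τ : E →ₐ[k] E} (h1 : ∀ x, τ (α x) = β x)
  (h2 : ∀ x, τ (β x) = α x) (m m' : Mv k F)

include h1 in
theorem map_swap (f : F⟦X⟧) : PowerSeries.map (τ : E →+* E) (PowerSeries.map (α : F →+* E) f) =
    PowerSeries.map (β : F →+* E) f := by
  ext i
  simp [h1]

include h1 h2

/-- (T2) -/
theorem ten_swap (f : E⟦X⟧) : PowerSeries.map (τ : E →+* E) ((ten h m m').ψ f) =
    (ten h m' m).ψ (PowerSeries.map (τ : E →+* E) f) := by
  refine hom_ext (ψ := (PowerSeries.map (τ : E →+* E)).comp (ten h m m').ψ)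
    (ψ' := (ten h m' m).ψ.comp (PowerSeries.map (τ : E →+* E))) (by simp [Mv.ψX])
    (by simp [Mv.ψX]) (fun a => ?_) f
  have := pf_ext h (γ := (PowerSeries.mapAlgHom τ).comp (ten h m m').hom)
    (γ' := (ten h m' m).hom.comp τ)
    (fun x => by simp [mapAlgHom_apply, ten_C_left, h1, ten_C_right, map_swap h1])
    (fun x => by simp [mapAlgHom_apply, ten_C_left, h2, ten_C_right, map_swap h2])
  simpa [mapAlgHom_apply] using AlgHom.congr_fun this a

theorem ten_swap_u : PowerSeries.map (τ : E →+* E) (ten h m m').u = (ten h m' m).u := by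
  rw [ten_u, ten_u, map_mul, map_swap h1, map_swap h2, mul_comm]

theorem ten_swap_act (f : E⟦X⟧) : PowerSeries.map (τ : E →+* E) ((ten h m m').act f) =
    (ten h m' m).act (PowerSeries.map (τ : E →+* E) f) := by
  rw [Mv.act_apply, Mv.act_apply, map_mul, ten_swap h h1 h2, ten_swap_u h h1 h2]

end Swap

section Loc

variable {F L E : Type} [Field F] [Algebra ℂ F] [Field L] [Algebra ℂ L] [Field E] [Algebra ℂ E]
  {P : PModel ℂ F} {Q : PModel ℂ L}

/-- (T3) -/
theorem same_nsmul {M : BD ℂ F} (hM : M ∈ On P) {p : Pts P} {m m' : Mv ℂ F}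
    (hs : m.Same m' (oR p) (nS M p)) (j : ℕ) :
    (m.pow j).Same (m'.pow j) (oR p) (nS (j • M) p) := by
  obtain ⟨g, hg⟩ := hM p
  exact hs.pow hg.ne (fun _ => mem_nS_iff hg) fun _ => mem_nS_iff (hg.nsmul j)

/-- a move which maps a ring into the series over one of its localisations preserves the latter -/
theorem ψ_mem_of {O : LP F} {B : Subalgebra ℂ F} (hO : O.Of B) {m : Mv ℂ F}
    (hB : ∀ a ∈ B, m.ψ (C a) ∈ serR O.O.toSubring) {f : F} (hf : f ∈ O.O) :
    m.ψ (C f) ∈ serR O.O.toSubring :=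
  Mv.ψ_mem_of_loc (B := B) hB (fun f hf => by
    obtain ⟨a, ha, c, hc, h1, h2⟩ := hO.loc f hf
    exact ⟨a, ha, c, hc, c⁻¹, O.inv_mem h1, mul_inv_cancel₀ (LP.ne_zero_of_ne h1), h2⟩) hf

variable {α : F →ₐ[ℂ] E} {β : L →ₐ[ℂ] E} (h : IsPF α β) {p : Pts P} {q : Pts Q}

theorem at_mk {M : BD ℂ F} {M' : BD ℂ L} {g : F} {g' : L} (hg : At M p g) (hg' : At M' q g') :
    At (pb α M + pb β M') (Cns.mk h p q) (α g * β g') :=
  (At.pb (Cns.fst_p P Q h) (by rwa [Cns.fst_mk])).add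
    (At.pb (Cns.snd_p P Q h) (by rwa [Cns.snd_mk]))

theorem left_mem {a : F} (ha : a ∈ oR p) : α a ∈ oR (Cns.mk h p q) := by
  simpa using Cns.mem_mk h ha (one_mem (lp q).O)

theorem right_mem {b : L} (hb : b ∈ oR q) : β b ∈ oR (Cns.mk h p q) := by
  simpa using Cns.mem_mk h (one_mem (lp p).O) hb

theorem map_left_mem {f : F⟦X⟧} (hf : f ∈ serR (oR p)) :
    PowerSeries.map (α : F →+* E) f ∈ serR (oR (Cns.mk h p q)) :=
  map_mem_ser (M := (oR p).toAddSubgroup) (M' := (oR (Cns.mk h p q)).toAddSubgroup)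
    (fun _ ha => left_mem h ha) hf

theorem map_right_mem {f : L⟦X⟧} (hf : f ∈ serR (oR q)) :
    PowerSeries.map (β : L →+* E) f ∈ serR (oR (Cns.mk h p q)) :=
  map_mem_ser (M := (oR q).toAddSubgroup) (M' := (oR (Cns.mk h p q)).toAddSubgroup)
    (fun _ ha => right_mem h ha) hf

theorem ten_ψ_mem {d : Mv ℂ F} {d' : Mv ℂ L} (hd : ∀ a ∈ oR p, d.ψ (C a) ∈ serR (oR p))
    (hd' : ∀ a ∈ oR q, d'.ψ (C a) ∈ serR (oR q)) {f : E} (hf : f ∈ oR (Cns.mk h p q)) :
    (ten h d d').ψ (C f) ∈ serR (oR (Cns.mk h p q)) := by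
  have h1 : (lp (Cns.mk h p q)).Of _ := Cns.lp_mk h p q ▸ Cns.lpP_of h
  refine ψ_mem_of h1 (fun a ha => ?_) hf
  rw [Cns.pr_eq_adjoin'] at ha
  refine Mv.ψ_mem_of_adjoin ?_ ha
  rintro _ (⟨a, ha, rfl⟩ | ⟨b, hb, rfl⟩)
  · rw [ten_C_left]
    exact map_left_mem h (hd a ha)
  · rw [ten_C_right]
    exact map_right_mem h (hd' b hb)

theorem pres_ten {M : BD ℂ F} {M' : BD ℂ L} (hM : M ∈ On P) (hM' : M' ∈ On Q) {d : Mv ℂ F}
    {d' : Mv ℂ L} (hd : d.Pres (oR p) (nS M p)) (hd' : d'.Pres (oR q) (nS M' q)) :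
    (ten h d d').Pres (oR (Cns.mk h p q)) (nS (pb α M + pb β M') (Cns.mk h p q)) := by
  obtain ⟨g, hg⟩ := hM p
  obtain ⟨g', hg'⟩ := hM' q
  obtain ⟨a1, w, hw, e⟩ := (pres_prin hg.ne fun _ => mem_nS_iff hg).1 hd
  obtain ⟨a2, w', hw', e'⟩ := (pres_prin hg'.ne fun _ => mem_nS_iff hg').1 hd'
  have hz := at_mk h hg hg'
  refine (pres_prin hz.ne fun _ => mem_nS_iff hz).2 ⟨fun f hf => ten_ψ_mem h a1 a2 hf, _,
    mul_mem (map_left_mem h hw) (map_right_mem h hw'), ?_⟩
  have := ten_act h d d' (C g) (C g')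
  rw [e, e'] at this
  simp only [map_mul, map_C, RingHom.coe_coe] at this ⊢
  rw [this]
  ring

/-- (T4) -/
theorem same_ten {M : BD ℂ F} {M' : BD ℂ L} (hM : M ∈ On P) (hM' : M' ∈ On Q) {m₁ m₂ : Mv ℂ F}
    {m₁' m₂' : Mv ℂ L} (hs : m₁.Same m₂ (oR p) (nS M p)) (hs' : m₁'.Same m₂' (oR q) (nS M' q)) :
    (ten h m₁ m₁').Same (ten h m₂ m₂') (oR (Cns.mk h p q))
      (nS (pb α M + pb β M') (Cns.mk h p q)) := by
  obtain ⟨d, hd, rfl⟩ := hs.exists
  obtain ⟨d', hd', rfl⟩ := hs'.exists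
  rw [ten_comp]
  exact Mv.same_comp_iff.2 (pres_ten h hM hM' hd hd')

end Loc

theorem Dfm.same {F : Type} [Field F] [Algebra ℂ F] {Γ : MvPolynomial (Fin 4) ℂ}
    {S : Top.Hyp 3 Γ F} {M : BD ℂ F} (D : Dfm S M) {a b : Fin 3} {x : Pts S.P} (ha : x ∈ U S a)
    (hb : x ∈ U S b) : (D.Φ a).Same (D.Φ b) (oR x) (nS M x) :=
  ⟨D.ring a b x ha hb, D.sec a b x ha hb⟩

end Crest.Agent.X262.Mv99
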