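import Crest.Agent.X262.Mv99.Mon
import Crest.Agent.X277.Jet.Fr

-- ▼ part X262/Be94/Tr
section

/-!
# Row 262, G4 / TR (helper94), part 1: the trace on `H²(O)` of the quartic

* `gm_mul`, `gm_y`, `gm_inv`, `gm_aeval` : calculus of the sections `Gm S n I` of `O(n)`;
* `Cob S n`, `exists_tr`, `perfect` : coboundaries, the trace, duality with the quartic forms;
* `pd S`, `euler`, `exists_w` : the partial derivatives generate the unit ideal on every chart.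
-/

set_option autoImplicit false
set_option linter.unusedSectionVars false

open MvPolynomial Submodule

noncomputable section

namespace Crest.Agent.X262.Be94

open Crest.Agent.X277 Crest.Agent.X277.Lef Crest.Agent.X277.AN.G1 Crest.Agent.X277.BD
open Crest.Agent.X277.BD.Br (On oP kP At at_y)
open Crest.Agent.X262.Top (Hyp)
open Crest.Agent.X262.Mv99

variable {F : Type} [Field F] [Algebra ℂ F] {Γ : MvPolynomial (Fin 4) ℂ} {S : Hyp 3 Γ F}
  {n n' : ℤ} {I : Finset (Fin 3)} {f g : F}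

theorem gm_mul {e : ℤ} (hf : f ∈ Gm S n I) (hg : g ∈ Gm S n' I) (he : n + n' = e) :
    f * g ∈ Gm S e I := fun x hx => by
  rw [← he, add_smul]
  exact mul_mem_nS (hf x hx) (hg x hx)

theorem gm_y (i : Fin 4) : S.y i ∈ Gm S 1 I := fun x _ V _ => by
  rw [one_smul]
  exact Br.y_mem_Sec (P := S.P) i V

theorem gm_zpow {a : Fin 3} (ha : a ∈ I) (n : ℤ) : S.y a.castSucc ^ n ∈ Gm S n I :=
  wd_le_gm n ⟨a, ha⟩ (zpow_mem_Wd ha n)

theorem gm_div {a : Fin 3} (ha : a ∈ I) {e : ℤ} (hf : f ∈ Gm S n I) (he : n - 1 = e) :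
    f / S.y a.castSucc ∈ Gm S e I := by
  rw [div_eq_mul_inv, ← zpow_neg_one]
  exact gm_mul hf (gm_zpow ha (-1)) he

theorem gm_aeval (hI : I.Nonempty) {k : ℕ} {q : MvPolynomial (Fin 4) ℂ} (hq : q.IsHomogeneous k) :
    aeval S.y q ∈ Gm S k I := wd_le_gm k hI (aeval_mem_Wd hq I)

theorem gm_mon (hI : I.Nonempty) {m : Fin 4 → ℤ} (hm : m ∈ Ex n ∅) : mon S.y m ∈ Gm S n I :=
  wd_le_gm n hI (mon_mem_Wd (Ex.mono (Finset.empty_subset I) hm))

theorem gm_unit (hI : I.Nonempty) : (1 : F) ∈ Gm S 0 I := wd_le_gm 0 hI (one_mem_Wd I)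

theorem gm_dot {e : ℤ} {a b : Fin 4 → F} (ha : ∀ i, a i ∈ Gm S n I) (hb : ∀ i, b i ∈ Gm S n' I)
    (he : n + n' = e) : a ⬝ᵥ b ∈ Gm S e I := sum_mem fun i _ => gm_mul (ha i) (hb i) he

theorem gm_left {a b : Fin 3} (h : f ∈ Gm S n {a}) : f ∈ Gm S n {a, b} := GmM.mono (by simp) h

theorem gm_right {a b : Fin 3} (h : f ∈ Gm S n {b}) : f ∈ Gm S n {a, b} := GmM.mono (by simp) h

theorem gm_univ (h : f ∈ Gm S n I) : f ∈ Gm S n Finset.univ := GmM.mono (Finset.subset_univ I) h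

variable (S) in
/-- coboundaries -/
def Cob (n : ℤ) : Submodule ℂ F := Gm S n {0, 1} ⊔ Gm S n {1, 2} ⊔ Gm S n {0, 2}

theorem cob01 (h : f ∈ Gm S n {0, 1}) : f ∈ Cob S n := mem_sup_left (mem_sup_left h)

theorem cob12 (h : f ∈ Gm S n {1, 2}) : f ∈ Cob S n := mem_sup_left (mem_sup_right h)

theorem cob02 (h : f ∈ Gm S n {0, 2}) : f ∈ Cob S n := mem_sup_right h

theorem mem_cob : f ∈ Cob S n ↔ ∃ a ∈ Gm S n {0, 1}, ∃ b ∈ Gm S n {1, 2}, ∃ c ∈ Gm S n {0, 2},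
    f = c - a - b := by
  refine ⟨fun h => ?_, ?_⟩
  · obtain ⟨x, hx, c, hc, rfl⟩ := mem_sup.1 h
    obtain ⟨a, ha, b, hb, rfl⟩ := mem_sup.1 hx
    exact ⟨-a, neg_mem ha, -b, neg_mem hb, c, hc, by ring⟩
  · rintro ⟨a, ha, b, hb, c, hc, rfl⟩
    exact sub_mem (sub_mem (cob02 hc) (cob01 ha)) (cob12 hb)

theorem cob_mul {m : Fin 4 → ℤ} {e : ℤ} (hf : f ∈ Cob S n) (hm : m ∈ Ex n' ∅) (he : n + n' = e) :
    f * mon S.y m ∈ Cob S e := by
  obtain ⟨a, ha, b, hb, c, hc, rfl⟩ := mem_cob.1 hf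
  exact mem_cob.2 ⟨_, gm_mul ha (gm_mon (by simp) hm) he, _, gm_mul hb (gm_mon (by simp) hm) he,
    _, gm_mul hc (gm_mon (by simp) hm) he, by ring⟩

theorem mon_mem_cob {m : Fin 4 → ℤ} (hm : m ∈ Ex n Finset.univ)
    (h : 0 ≤ m 0 ∨ 0 ≤ m 1 ∨ 0 ≤ m 2) : mon S.y m ∈ Cob S n := by
  rcases h with h | h | h
  · refine cob12 (wd_le_gm n (by simp) (mon_mem_Wd ⟨hm.1, hm.2.1, fun a ha => ?_⟩))
    fin_cases a <;> simp_all
  · refine cob02 (wd_le_gm n (by simp) (mon_mem_Wd ⟨hm.1, hm.2.1, fun a ha => ?_⟩))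
    fin_cases a <;> simp_all
  · refine cob01 (wd_le_gm n (by simp) (mon_mem_Wd ⟨hm.1, hm.2.1, fun a ha => ?_⟩))
    fin_cases a <;> simp_all

/-- the exponent of `eH` -/
def e₀ : Fin 4 → ℤ := ![-1, -1, -1, 3]

theorem e₀_mem : e₀ ∈ Ex3 0 Finset.univ :=
  ⟨⟨by simp [e₀, Fin.sum_univ_four], by simp [e₀], by simp⟩, by simp [e₀]⟩

theorem mon_mem_cob0 {m : Fin 4 → ℤ} (hm : m ∈ Ex3 0 Finset.univ) (h : m ≠ e₀) :
    mon S.y m ∈ Cob S 0 := by
  refine mon_mem_cob hm.1 (by_contra fun hc => h (funext fun i => ?_))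
  have h1 := hm.1.1
  have h2 := hm.2
  rw [Fin.sum_univ_four] at h1
  fin_cases i <;> simp [e₀] <;> omega

theorem eH_notMem (hΓ : Qt Γ) : eH S ∉ Cob S 0 := by
  have key : ∀ a b c : Fin 3, c ∉ ({a, b} : Finset (Fin 3)) →
      Gm S 0 {a, b} ≤ span ℂ (mon S.y '' (Ex3 0 Finset.univ \ {e₀})) := fun a b c hc => by
    rw [gm_two hΓ]
    refine span_mono (Set.image_mono fun m hm => ⟨Ex3.mono (Finset.subset_univ _) hm, ?_⟩)
    rintro rfl
    have := hm.1.2.2 c hc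
    fin_cases c <;> simp [e₀] at this
  exact fun hc => (indepS (S := S) hΓ 0).notMem_span e₀_mem
    (sup_le (sup_le (key 0 1 2 (by decide)) (key 1 2 0 (by decide))) (key 0 2 1 (by decide)) hc)

/-- the trace -/
theorem exists_tr (hΓ : Qt Γ) : ∃ tr : F →ₗ[ℂ] ℂ, tr (eH S) = 1 ∧ (∀ f ∈ Cob S 0, tr f = 0) ∧
    ∀ f ∈ Gm S 0 Finset.univ, tr f = 0 → f ∈ Cob S 0 := by
  obtain ⟨φ, h4, h5⟩ := exists_dual_map_eq_bot_of_notMem (eH_notMem (S := S) hΓ) inferInstance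
  have h6 : ∀ f ∈ Cob S 0, φ f = 0 := fun f hf => (mem_bot ℂ).1 (h5 ▸ mem_map_of_mem hf)
  refine ⟨(φ (eH S))⁻¹ • φ, by simp [h4], fun f hf => by simp [h6 f hf], fun f hf h0 => ?_⟩
  obtain ⟨a, ha, b, hb, c, hc, t, rfl⟩ := h2_zero hΓ hf
  have h7 := mem_cob.2 ⟨a, ha, b, hb, c, hc, rfl⟩
  rw [map_add, map_smul, LinearMap.smul_apply, h6 _ h7, LinearMap.smul_apply, smul_eq_mul,
    smul_eq_mul, smul_eq_mul, inv_mul_cancel₀ h4, mul_zero, zero_add, mul_one] at h0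
  rwa [h0, zero_smul, add_zero]

/-- duality between `H²(O(-4))` and the quartic forms -/
theorem perfect (hΓ : Qt Γ) (hg : g ∈ Gm S (-4) Finset.univ)
    (h0 : ∀ m ∈ Ex 4 ∅, g * mon S.y m ∈ Cob S 0) : g ∈ Cob S (-4) := by
  classical
  obtain ⟨tr, h2, h1, -⟩ := exists_tr (S := S) hΓ
  have h3 : Gm S (-4) Finset.univ ≤ Cob S (-4) ⊔
      span ℂ (mon S.y '' {m | m ∈ Ex3 (-4) Finset.univ ∧ m 0 < 0 ∧ m 1 < 0 ∧ m 2 < 0}) := by
    rw [gm_eq_sp hΓ _ Finset.univ_nonempty]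
    refine span_le.2 ?_
    rintro _ ⟨m, hm, rfl⟩
    by_cases he : m 0 < 0 ∧ m 1 < 0 ∧ m 2 < 0
    · exact mem_sup_right (subset_span ⟨m, ⟨hm, he⟩, rfl⟩)
    · exact mem_sup_left (mon_mem_cob hm.1 (by omega))
  obtain ⟨a, ha, b, hb, rfl⟩ := mem_sup.1 (h3 hg)
  obtain ⟨l, hl, rfl⟩ := (Finsupp.mem_span_image_iff_linearCombination ℂ).1 hb
  by_cases hl0 : l = 0
  · rwa [hl0, map_zero, add_zero]
  obtain ⟨m, hm, hmax⟩ := l.support.exists_max_image (fun m => m 3)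
    (Finsupp.support_nonempty_iff.2 hl0)
  obtain ⟨⟨⟨a1, a2, -⟩, a3⟩, a4, a5, a6⟩ := hl hm
  rw [Fin.sum_univ_four] at a1
  have h5 : e₀ - m ∈ Ex 4 ∅ := by
    refine ⟨?_, ?_, fun i _ => ?_⟩
    · simp only [Fin.sum_univ_four, Pi.sub_apply]
      change -1 - m 0 + (-1 - m 1) + (-1 - m 2) + (3 - m 3) = 4
      omega
    · change 0 ≤ 3 - m 3
      omega
    · fin_cases i
      · change 0 ≤ -1 - m 0
        omega
      · change 0 ≤ -1 - m 1
        omega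
      · change 0 ≤ -1 - m 2
        omega
  have h6 := sub_mem (h0 _ h5) (cob_mul ha h5 (by norm_num))
  rw [add_mul, add_sub_cancel_left] at h6
  have h7 := h1 _ h6
  have h8 : ∀ m' ∈ l.support, m' ≠ m → tr (l m' • mon S.y m' * mon S.y (e₀ - m)) = 0 := by
    intro m' hm' hne
    obtain ⟨⟨b1, b2⟩, -⟩ := hl hm'
    have b3 : m' 3 ≤ m 3 := hmax m' hm'
    have b4 : m' + (e₀ - m) ∈ Ex3 0 Finset.univ := by
      refine ⟨Ex.add b1 (Ex.mono (Finset.empty_subset _) h5), ?_⟩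
      change m' 3 + (3 - m 3) ≤ 3
      omega
    rw [smul_mul_assoc, ← mon_add S.y_ne, map_smul, h1 _ (mon_mem_cob0 b4 fun he => hne ?_),
      smul_zero]
    rw [← add_sub_assoc, sub_eq_iff_eq_add, add_comm] at he
    exact add_left_cancel he
  rw [Finsupp.linearCombination_apply, Finsupp.sum, Finset.sum_mul, map_sum,
    Finset.sum_eq_single m h8 (fun h => (h hm).elim), smul_mul_assoc, ← mon_add S.y_ne,
    add_sub_cancel, map_smul, show mon S.y e₀ = eH S from rfl, h2, smul_eq_mul, mul_one] at h7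
  exact (Finsupp.mem_support_iff.1 hm h7).elim

theorem finite_ex : (Ex 4 ∅).Finite := by
  refine (Set.Finite.pi' fun _ : Fin 4 => Set.finite_Icc (0 : ℤ) 4).subset fun m hm i => ?_
  have h0 := hm.2.2 0 (by simp)
  have h1 := hm.2.2 1 (by simp)
  have h2 := hm.2.2 2 (by simp)
  have h3 := hm.2.1
  have h4 := hm.1
  rw [Fin.sum_univ_four] at h4
  change 0 ≤ m 0 at h0
  change 0 ≤ m 1 at h1
  change 0 ≤ m 2 at h2
  fin_cases i <;> simp <;> omega

/-- `H⁰(O) = ℂ` -/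
theorem h0_zero (hΓ : Qt Γ) (hf : ∀ a, f ∈ Gm S 0 {a}) : ∃ c : ℂ, f = algebraMap ℂ F c := by
  have h3 : Sp S.y 0 ∅ ≤ span ℂ {1} := span_le.2 (by
    rintro _ ⟨m, ⟨⟨h4, h3, h⟩, -⟩, rfl⟩
    have h0 := h 0 (by simp)
    have h1 := h 1 (by simp)
    have h2 := h 2 (by simp)
    rw [Fin.sum_univ_four] at h4
    change 0 ≤ m 0 at h0
    change 0 ≤ m 1 at h1
    change 0 ≤ m 2 at h2
    have h5 : m = 0 := funext fun i => by fin_cases i <;> simp <;> omega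
    rw [h5]
    simp [mon])
  obtain ⟨c, hc⟩ := mem_span_singleton.1 (h3 (h0 hΓ 0 hf))
  exact ⟨c, by rw [← hc, Algebra.algebraMap_eq_smul_one]⟩

variable (S) in
/-- the gradient -/
def pd (i : Fin 4) : F := aeval S.y (pderiv i Γ)

theorem pd_mem (hΓ : Qt Γ) (hI : I.Nonempty) (i : Fin 4) : pd S i ∈ Gm S 3 I :=
  gm_aeval (k := 3) hI hΓ.1.pderiv

theorem euler (hΓ : Qt Γ) : S.y ⬝ᵥ pd S = 0 := by
  have h := congrArg (aeval S.y) hΓ.1.sum_X_mul_pderiv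
  simpa [dotProduct, pd, map_sum, hyp_zero hΓ] using h

theorem pd_ne (hΓ : Qt Γ) : pd S 3 ≠ 0 := fun h => by
  have h1 := (S.ker 3 _ (hΓ.1.pderiv (i := 3))).1 h
  have h2 : pderiv 3 Γ ≠ 0 := fun h0 => by
    have := coeff_pderiv (i := 3) Γ (Finsupp.single 3 3)
    rw [h0, coeff_zero, ← Finsupp.single_add, eq_comm, mul_eq_zero] at this
    exact this.elim hΓ.2.1 (by norm_num)
  have h3 := totalDegree_le_of_dvd_of_isDomain h1 h2
  rw [hΓ.1.totalDegree (ne_zero_of_dvd_ne_zero h2 h1), (hΓ.1.pderiv (i := 3)).totalDegree h2] at h3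
  omega

/-- the partial derivatives generate -/
theorem exists_w (hΓ : Qt Γ) (a : Fin 3) :
    ∃ w : Fin 4 → F, (∀ i, w i ∈ Gm S (-3) {a}) ∧ w ⬝ᵥ pd S = 1 := by
  let N : AddSubgroup F :=
    { carrier := {f | ∃ w : Fin 4 → F, (∀ i, w i ∈ Gm S (-3) {a}) ∧ w ⬝ᵥ pd S = f}
      zero_mem' := ⟨0, fun _ => zero_mem _, zero_dotProduct _⟩
      add_mem' := by
        rintro _ _ ⟨w, h, rfl⟩ ⟨w', h', rfl⟩
        exact ⟨w + w', fun i => add_mem (h i) (h' i), add_dotProduct _ _ _⟩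
      neg_mem' := by
        rintro _ ⟨w, h, rfl⟩
        exact ⟨-w, fun i => neg_mem (h i), neg_dotProduct _ _⟩ }
  have hA : ∀ c ∈ S.P.A a.castSucc, c ∈ Gm S 0 {a} := fun c hc =>
    wd_le_gm 0 (by simp) (A_le_Wd a hc)
  obtain ⟨k, w, h1, h2⟩ := exists_pow_mul_mem (P := S.P) (i := a.castSucc) N (f := (1 : F))
    (by
      rintro c hc _ ⟨w, h, rfl⟩
      exact ⟨c • w, fun i => gm_mul (hA c hc) (h i) (zero_add _), smul_dotProduct _ _ _⟩)
    (one_mem _) fun x hx _ => by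
      have hv : ∀ q : MvPolynomial (Fin 4) ℂ, ev (aeval (fun j => S.y j / S.y a.castSucc) q) x =
          eval (fun j => ev (S.y j / S.y a.castSucc) x) q :=
        fun q => LP.v_aeval (y_mem (P := S.P) hx) q
      obtain ⟨l, hl⟩ := hΓ.2.2 (fun j => ev (S.y j / S.y a.castSucc) x)
        (fun h => by simpa [div_self (S.y_ne _)] using congrFun h a.castSucc)
        (by rw [← hv, aeval_div hΓ.1, hyp_zero hΓ, zero_div]; exact LP.v_zero _)
      refine ⟨_, ?_, hv _ ▸ hl, Pi.single l (S.y a.castSucc ^ (-3 : ℤ)), fun i => ?_, ?_⟩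
      · rw [PModel.A, chart, Algebra.adjoin_range_eq_range_aeval]
        exact ⟨_, rfl⟩
      · by_cases hi : i = l
        · rw [hi, Pi.single_eq_same]
          exact gm_zpow (by simp) _
        · rw [Pi.single_eq_of_ne hi]
          exact zero_mem _
      · rw [single_dotProduct, aeval_div (k := 3) hΓ.1.pderiv, smul_eq_mul, mul_one, pd,
          div_eq_inv_mul, zpow_neg, zpow_ofNat]
  exact ⟨w, h1, by simpa using h2⟩

end Crest.Agent.X262.Be94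
end
end

-- ▼ part X262/Be94/Vf
section

/-!
# Row 262, G4 / TR (helper94), part 2: vector fields on the quartic in homogeneous coordinates

* `Rep S D b` : the vector `b` (tangent to the cone) represents the rational vector field `D`;
* `exists_rep`, `Rep.zero` : existence and uniqueness of the field of a tangent vector;
* `Fld S I D` : `D` is regular on the charts in `I`; `Rep.fld`, `Fld.rep`;
* `split`, `h2_tangent` : `H²(T) = 0`; `exists_theta` : the class of the hyperplane section.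
-/

set_option autoImplicit false
set_option linter.unusedSectionVars false

open MvPolynomial Submodule
open scoped KaehlerDifferential

noncomputable section

namespace Crest.Agent.X262.Be94

open Crest.Agent.X277 Crest.Agent.X277.Lef Crest.Agent.X277.AN.G1 Crest.Agent.X277.BD
open Crest.Agent.X277.BD.Br (On oP kP At at_y)
open Crest.Agent.X262.Top (Hyp)
open Crest.Agent.X262.Mv99

variable {F : Type} [Field F] [Algebra ℂ F] {Γ : MvPolynomial (Fin 4) ℂ} {S : Hyp 3 Γ F}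
  {I : Finset (Fin 3)} {D D' : Derivation ℂ F F} {b b' : Fin 4 → F}

/-- the pairing of vector fields and one-forms -/
def pg : Derivation ℂ F F →ₗ[F] Ω[F⁄ℂ] →ₗ[F] F :=
  (KaehlerDifferential.linearMapEquivDerivation ℂ F).symm.toLinearMap

@[simp] theorem pg_D (D : Derivation ℂ F F) (f : F) : pg D (KaehlerDifferential.D ℂ F f) = D f :=
  D.liftKaehlerDifferential_comp_D f

theorem eq_zero_of_pg {ζ : Ω[F⁄ℂ]} (h : ∀ D : Derivation ℂ F F, pg D ζ = 0) : ζ = 0 :=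
  (Module.forall_dual_apply_eq_zero_iff F ζ).1 fun φ => by
    obtain ⟨D, rfl⟩ := (KaehlerDifferential.linearMapEquivDerivation ℂ F).symm.surjective φ
    exact h D

variable (S) in
/-- `b` represents `D` -/
def Rep (D : Derivation ℂ F F) (b : Fin 4 → F) : Prop := ∃ l : F, ∀ i, D (S.y i) = b i + l * S.y i

theorem rep_self (D : Derivation ℂ F F) : Rep S D fun i => D (S.y i) := ⟨0, fun _ => by simp⟩

theorem rep_y (c : F) : Rep S 0 (c • S.y) := ⟨-c, fun _ => by simp⟩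

theorem Rep.add (h : Rep S D b) (h' : Rep S D' b') : Rep S (D + D') (b + b') := by
  obtain ⟨l, h⟩ := h
  obtain ⟨l', h'⟩ := h'
  exact ⟨l + l', fun i => by rw [Derivation.add_apply, h, h', Pi.add_apply]; ring⟩

theorem Rep.smul (c : F) (h : Rep S D b) : Rep S (c • D) (c • b) := by
  obtain ⟨l, h⟩ := h
  exact ⟨c * l, fun i => by
    rw [Derivation.smul_apply, h, Pi.smul_apply, smul_eq_mul, smul_eq_mul]; ring⟩

theorem Rep.sub (h : Rep S D b) (h' : Rep S D' b') : Rep S (D - D') (b - b') := by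
  obtain ⟨l, h⟩ := h
  obtain ⟨l', h'⟩ := h'
  exact ⟨l - l', fun i => by rw [Derivation.sub_apply, h, h', Pi.sub_apply]; ring⟩

theorem Rep.sum {ι : Type} (s : Finset ι) {E : ι → Derivation ℂ F F} {v : ι → Fin 4 → F}
    (h : ∀ j, Rep S (E j) (v j)) : Rep S (∑ j ∈ s, E j) (∑ j ∈ s, v j) := by
  classical
  induction s using Finset.induction_on with
  | empty => exact ⟨0, fun _ => by simp⟩
  | insert i s hi ih =>
    rw [Finset.sum_insert hi, Finset.sum_insert hi]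
    exact (h i).add ih

theorem Rep.div (h : Rep S D b) (i j : Fin 4) :
    D (S.y i / S.y j) = b i / S.y j - b j / S.y j * (S.y i / S.y j) := by
  obtain ⟨l, h⟩ := h
  have := S.y_ne j
  rw [Derivation.leibniz_div, h, h, smul_eq_mul, smul_eq_mul, smul_eq_mul]
  field_simp
  ring

theorem Rep.tan (hΓ : Qt Γ) (h : Rep S D b) : b ⬝ᵥ pd S = 0 := by
  obtain ⟨l, h⟩ := h
  have h1 := Jet.der_aeval D S.y Γ
  have h2 : b = (fun i => D (S.y i)) - l • S.y := funext fun i => by simp [h]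
  rw [hyp_zero hΓ, map_zero] at h1
  rw [h2, sub_dotProduct, smul_dotProduct, euler hΓ, smul_zero, sub_zero, dotProduct_comm]
  exact h1.symm

theorem der_mem {j : Fin 4} (T : Subring F) (hT : ∀ f ∈ S.P.A j, f ∈ T)
    (h : ∀ i, D (S.y i / S.y j) ∈ T) {f : F} (hf : f ∈ S.P.A j) : D f ∈ T := by
  induction hf using Algebra.adjoin_induction with
  | mem x hx =>
    obtain ⟨i, rfl⟩ := hx
    exact h i
  | algebraMap c => rw [Derivation.map_algebraMap]; exact zero_mem _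
  | add x y _ _ hx hy => rw [map_add]; exact add_mem hx hy
  | mul x y h1 h2 hx hy =>
    rw [Derivation.leibniz]
    exact add_mem (mul_mem (hT _ h1) hy) (mul_mem (hT _ h2) hx)

theorem der_eq_zero (h : ∀ i, D (S.y i / S.y 0) = 0) : D = 0 := by
  have key : ∀ f ∈ chart ℂ S.y 0, D f = 0 := fun f hf => by
    induction hf using Algebra.adjoin_induction with
    | mem x hx =>
      obtain ⟨i, rfl⟩ := hx
      exact h i
    | algebraMap c => exact D.map_algebraMap c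
    | add x y _ _ hx hy => rw [map_add, hx, hy, add_zero]
    | mul x y _ _ hx hy => rw [Derivation.leibniz, hx, hy, smul_zero, smul_zero, add_zero]
  ext f
  obtain ⟨a, ha, c, hc, -, rfl⟩ := S.frac f
  rw [Derivation.leibniz_div, key a ha, key c hc]
  simp

theorem Rep.uniq (h : Rep S D b) (h' : Rep S D' b) : D = D' :=
  sub_eq_zero.1 (der_eq_zero (S := S) fun i => by rw [(h.sub h').div]; simp)

theorem rep_of (hΓ : Qt Γ) (hb : b ⬝ᵥ pd S = 0)
    (h1 : D (S.y 1 / S.y 0) = b 1 / S.y 0 - b 0 / S.y 0 * (S.y 1 / S.y 0))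
    (h2 : D (S.y 2 / S.y 0) = b 2 / S.y 0 - b 0 / S.y 0 * (S.y 2 / S.y 0)) : Rep S D b := by
  have h0 := S.y_ne 0
  have key : ∀ i, D (S.y i / S.y 0) = b i / S.y 0 - b 0 / S.y 0 * (S.y i / S.y 0) →
      D (S.y i) = b i + (D (S.y 0) - b 0) / S.y 0 * S.y i := fun i hi => by
    rw [(rep_self (S := S) D).div] at hi
    field_simp at hi ⊢
    linear_combination hi
  have e0 := key 0 (by simp [div_self h0])
  have e1 := key 1 h1
  have e2 := key 2 h2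
  have e3 := (rep_self (S := S) D).tan hΓ
  have e4 : S.y 0 * pd S 0 + S.y 1 * pd S 1 + S.y 2 * pd S 2 + S.y 3 * pd S 3 = 0 :=
    (Fin.sum_univ_four fun i => S.y i * pd S i).symm.trans (euler (S := S) hΓ)
  refine ⟨(D (S.y 0) - b 0) / S.y 0, fun i => ?_⟩
  generalize (D (S.y 0) - b 0) / S.y 0 = l at e0 e1 e2 ⊢
  fin_cases i
  · exact e0
  · exact e1
  · exact e2
  · refine mul_right_cancel₀ (pd_ne (S := S) hΓ) ?_
    simp only [dotProduct, Fin.sum_univ_four, e0, e1, e2] at hb e3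
    change D (S.y 3) * _ = (b 3 + l * S.y 3) * _
    linear_combination e3 - hb - l * e4

theorem exists_rep (hΓ : Qt Γ) (B : Module.Basis (Fin 2) F Ω[F⁄ℂ]) (hb : b ⬝ᵥ pd S = 0) :
    ∃ D, Rep S D b := by
  let φ : Module.Dual F Ω[F⁄ℂ] →ₗ[F] (Fin 2 → F) := LinearMap.pi fun j =>
    Module.Dual.eval F _ (KaehlerDifferential.D ℂ F (S.y j.castSucc.succ / S.y 0))
  have := Module.Finite.of_basis B
  have hinj : Function.Injective φ := by
    rw [injective_iff_map_eq_zero]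
    intro ℓ hℓ
    obtain ⟨D, rfl⟩ := (KaehlerDifferential.linearMapEquivDerivation ℂ F).symm.surjective ℓ
    have h1 : D (S.y 1 / S.y 0) = 0 := (pg_D D _).symm.trans (congrFun hℓ 0)
    have h2 : D (S.y 2 / S.y 0) = 0 := (pg_D D _).symm.trans (congrFun hℓ 1)
    have h3 : Rep S D 0 := rep_of hΓ (zero_dotProduct _) (by simpa using h1) (by simpa using h2)
    rw [h3.uniq (D' := 0) ⟨0, fun _ => by simp⟩, map_zero]
  obtain ⟨ℓ, hℓ⟩ := (LinearMap.injective_iff_surjective_of_finrank_eq_finrank (by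
    rw [Subspace.dual_finrank_eq, Module.finrank_eq_card_basis B, Module.finrank_fin_fun,
      Fintype.card_fin])).1 hinj
    fun j => b j.castSucc.succ / S.y 0 - b 0 / S.y 0 * (S.y j.castSucc.succ / S.y 0)
  obtain ⟨D, rfl⟩ := (KaehlerDifferential.linearMapEquivDerivation ℂ F).symm.surjective ℓ
  exact ⟨D, rep_of hΓ hb ((pg_D D _).symm.trans (congrFun hℓ 0))
    ((pg_D D _).symm.trans (congrFun hℓ 1))⟩

variable (S) in
/-- regular vector fields -/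
def Fld (I : Finset (Fin 3)) (D : Derivation ℂ F F) : Prop := ∀ x ∈ UI S I, RV x D

theorem Rep.fld (hI : I.Nonempty) (h : Rep S D b) (hb : ∀ i, b i ∈ Gm S 1 I) : Fld S I D := by
  obtain ⟨a, ha⟩ := hI
  intro x hx f hf
  have hxa := hx a ha
  have h1 : ∀ i, b i / S.y a.castSucc ∈ oR x := fun i =>
    mem_Gm_zero.1 (gm_div ha (hb i) rfl) x hx
  have h2 : ∀ g ∈ S.P.A a.castSucc, D g ∈ oR x := fun g hg =>
    der_mem (oR x) (fun _ h => A_le (P := S.P) hxa h) (fun i => by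
      rw [h.div]
      exact sub_mem (h1 _) (mul_mem (h1 _) (y_mem (P := S.P) hxa i))) hg
  obtain ⟨u, hu, c, hc, h3, h4⟩ := (mem_lp_iff (P := S.P) hxa).1 hf
  have h5 : D f = (D u - f * D c) / c := by
    rw [← h4, Derivation.leibniz, eq_div_iff (LP.ne_zero_of_ne h3), smul_eq_mul, smul_eq_mul]
    ring
  rw [h5]
  exact LP.div_mem (sub_mem (h2 u hu) (mul_mem hf (h2 c hc))) h3

theorem Fld.rep (hI : I.Nonempty) (h : Fld S I D) : ∃ b, Rep S D b ∧ ∀ i, b i ∈ Gm S 1 I := by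
  obtain ⟨a, ha⟩ := hI
  refine ⟨fun i => S.y a.castSucc * D (S.y i / S.y a.castSucc),
    ⟨D (S.y a.castSucc) / S.y a.castSucc, fun i => ?_⟩, fun i => gm_mul (gm_y _)
      (mem_Gm_zero.2 fun x hx => h x hx _ (y_mem (P := S.P) (hx a ha) i)) (add_zero _)⟩
  have := S.y_ne a.castSucc
  beta_reduce
  rw [(rep_self (S := S) D).div]
  field_simp
  ring

/-- `H² = 0` for tangent vectors to the cone -/
theorem split (hΓ : Qt Γ) (hb : ∀ i, b i ∈ Gm S 1 Finset.univ) (h0 : b ⬝ᵥ pd S = 0) :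
    ∃ p q r : Fin 4 → F, (∀ i, p i ∈ Gm S 1 {0, 1}) ∧ (∀ i, q i ∈ Gm S 1 {1, 2}) ∧
      (∀ i, r i ∈ Gm S 1 {0, 2}) ∧ p ⬝ᵥ pd S = 0 ∧ q ⬝ᵥ pd S = 0 ∧ r ⬝ᵥ pd S = 0 ∧
      b = r - p - q := by
  choose p hp q hq r hr e using fun i => h2_pos hΓ le_rfl (hb i)
  choose w hw hw1 using exists_w (S := S) hΓ
  have e1 : b = r - p - q := funext e
  have e2 : p ⬝ᵥ pd S + q ⬝ᵥ pd S = r ⬝ᵥ pd S := by
    rw [e1, sub_dotProduct, sub_dotProduct] at h0
    linear_combination -h0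
  obtain ⟨c, hc, e3, e4⟩ := h1 hΓ 4 (gm_dot hp (pd_mem hΓ (by simp)) rfl)
    (gm_dot hq (pd_mem hΓ (by simp)) rfl) (e2 ▸ gm_dot hr (pd_mem hΓ (by simp)) rfl)
  have hv : ∀ a i, (c a • w a) i ∈ Gm S 1 {a} := fun a i => gm_mul (hc a) (hw a i) rfl
  have hd : ∀ a, (c a • w a) ⬝ᵥ pd S = c a := fun a => by
    rw [smul_dotProduct, hw1, smul_eq_mul, mul_one]
  refine ⟨p - (c 0 • w 0 - c 1 • w 1), q - (c 1 • w 1 - c 2 • w 2), r - (c 0 • w 0 - c 2 • w 2),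
    fun i => sub_mem (hp i) (sub_mem (gm_left (hv 0 i)) (gm_right (hv 1 i))),
    fun i => sub_mem (hq i) (sub_mem (gm_left (hv 1 i)) (gm_right (hv 2 i))),
    fun i => sub_mem (hr i) (sub_mem (gm_left (hv 0 i)) (gm_right (hv 2 i))), ?_, ?_, ?_, ?_⟩
  · rw [sub_dotProduct, sub_dotProduct, hd, hd, e3, sub_self]
  · rw [sub_dotProduct, sub_dotProduct, hd, hd, e4, sub_self]
  · rw [sub_dotProduct, sub_dotProduct, hd, hd, ← e2, e3, e4]
    ring
  · rw [e1]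
    abel

/-- `H²(T) = 0` -/
theorem h2_tangent (hΓ : Qt Γ) (B : Module.Basis (Fin 2) F Ω[F⁄ℂ]) (h : Fld S Finset.univ D) :
    ∃ D₁ D₂ D₃, Fld S {0, 1} D₁ ∧ Fld S {1, 2} D₂ ∧ Fld S {0, 2} D₃ ∧ D = D₃ - D₁ - D₂ := by
  obtain ⟨b, h1, h2⟩ := h.rep Finset.univ_nonempty
  obtain ⟨p, q, r, hp, hq, hr, tp, tq, tr, rfl⟩ := split hΓ h2 (h1.tan hΓ)
  obtain ⟨D₁, d1⟩ := exists_rep hΓ B tp
  obtain ⟨D₂, d2⟩ := exists_rep hΓ B tq
  obtain ⟨D₃, d3⟩ := exists_rep hΓ B tr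
  exact ⟨D₁, D₂, D₃, d1.fld (by simp) hp, d2.fld (by simp) hq, d3.fld (by simp) hr,
    h1.uniq ((d3.sub d1).sub d2)⟩

theorem RV.neg {x : Pts S.P} (h : RV x D) : RV x (-D) := fun a ha => neg_mem (h a ha)

theorem coc_of {η : Fin 3 → Derivation ℂ F F} (h01 : Fld S {0, 1} (η 0 - η 1))
    (h12 : Fld S {1, 2} (η 1 - η 2)) (h02 : Fld S {0, 2} (η 0 - η 2)) : Coc S η := by
  have h0 : ∀ a, ∀ x : Pts S.P, RV x (η a - η a) := fun a x f _ => by
    rw [sub_self]; exact zero_mem _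
  have h1 : ∀ a b, Fld S {a, b} (η a - η b) → ∀ x ∈ U S b, x ∈ U S a → RV x (η b - η a) :=
    fun a b h x hb ha => neg_sub (η a) (η b) ▸ RV.neg (h x (mem_UI_two.2 ⟨ha, hb⟩))
  intro a b x ha hb
  fin_cases a <;> fin_cases b
  exacts [h0 _ x, h01 x (mem_UI_two.2 ⟨ha, hb⟩), h02 x (mem_UI_two.2 ⟨ha, hb⟩),
    h1 0 1 h01 x ha hb, h0 _ x, h12 x (mem_UI_two.2 ⟨ha, hb⟩), h1 0 2 h02 x ha hb,
    h1 1 2 h12 x ha hb, h0 _ x]

/-- the deformation which is dual to the hyperplane class -/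
theorem exists_theta (hΓ : Qt Γ) (B : Module.Basis (Fin 2) F Ω[F⁄ℂ]) :
    ∃ (η : Fin 3 → Derivation ℂ F F) (p q r : Fin 4 → F), Coc S η ∧ Rep S (η 1 - η 2) q ∧
      (∀ i, p i ∈ Gm S 1 {0, 1}) ∧ (∀ i, q i ∈ Gm S 1 {1, 2}) ∧ (∀ i, r i ∈ Gm S 1 {0, 2}) ∧
      eH S • S.y = r - p - q := by
  obtain ⟨p, q, r, hp, hq, hr, tp, tq, tr, e⟩ := split (b := eH S • S.y) hΓ
    (fun i => gm_mul eH_mem (gm_y i) (zero_add _)) ((rep_y _).tan hΓ)
  obtain ⟨D₁, d1⟩ := exists_rep hΓ B tp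
  obtain ⟨D₂, d2⟩ := exists_rep hΓ B tq
  obtain ⟨D₃, d3⟩ := exists_rep hΓ B tr
  have e1 : D₃ - D₁ - D₂ = 0 := ((d3.sub d1).sub d2).uniq (e ▸ rep_y _)
  have e2 : D₃ - D₂ = D₁ := by rw [← sub_eq_zero, ← e1]; abel
  refine ⟨![D₃, D₂, 0], p, q, r, coc_of ?_ ?_ ?_, by simpa using d2, hp, hq, hr, e⟩
  · simpa [e2] using d1.fld (by simp) hp
  · simpa using d2.fld (by simp) hq
  · simpa using d3.fld (by simp) hr

end Crest.Agent.X262.Be94
end
end

-- ▼ part X262/Mv99/Wrap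

/-!
# Row 262, G4 / MV (helper99), part 5: `MvStmt` from the vanishing of `H²` of the Atiyah algebra
-/

set_option autoImplicit false

open PowerSeries
open scoped KaehlerDifferential

noncomputable section

namespace Crest.Agent.X262.Mv99

open Crest.Agent.X277 Crest.Agent.X277.Lef Crest.Agent.X277.AN.G1 Crest.Agent.X277.BD
open Crest.Agent.X277.BD.Br (On oP kP At)
open Crest.Agent.X262.Top (Hyp)

/-- `H² = 0` for the first order operators on a line bundle which is obstructed in some direction -/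
def H2Stmt : Prop := ∀ (F : Type) [Field F] [Algebra ℂ F] (Γ : MvPolynomial (Fin 4) ℂ)
  (S : Hyp 3 Γ F) (_ : Module.Basis (Fin 2) F Ω[F⁄ℂ]), Qt Γ → ∀ M ∈ On S.P,
  (∃ η₀, Coc S η₀ ∧ ¬ Lifts S η₀ M) → ∀ (D : Derivation ℂ F F) (r : F),
    (∀ x, (∀ a, x ∈ U S a) → Op (oR x) (nS M x) D r) →
    ∃ (D₀₁ D₁₂ D₀₂ : Derivation ℂ F F) (r₀₁ r₁₂ r₀₂ : F),
      (∀ x, x ∈ U S 0 → x ∈ U S 1 → Op (oR x) (nS M x) D₀₁ r₀₁) ∧
      (∀ x, x ∈ U S 1 → x ∈ U S 2 → Op (oR x) (nS M x) D₁₂ r₁₂) ∧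
      (∀ x, x ∈ U S 0 → x ∈ U S 2 → Op (oR x) (nS M x) D₀₂ r₀₂) ∧
      D = D₀₂ - D₀₁ - D₁₂ ∧ r = r₀₂ - r₀₁ - r₁₂

namespace Mv

variable {k L : Type*} [CommRing k] [CommRing L] [Algebra k L] {m m' : Mv k L} {A : Subring L}
  {N : AddSubgroup L}

theorem Pres.map_ring (h : m'.Pres A N) (m : Mv k L) :
    (serR A).map (m.comp m').ψ = (serR A).map m.ψ := by
  ext f
  simp only [Subring.mem_map, comp_ψ]
  constructor
  · rintro ⟨g, hg, rfl⟩
    exact ⟨_, h.ψ_mem hg, rfl⟩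
  · rintro ⟨g, hg, rfl⟩
    obtain ⟨g', h1, rfl⟩ := h.ψ_surj hg
    exact ⟨g', h1, rfl⟩

theorem Pres.map_sec (h : m'.Pres A N) (m : Mv k L) :
    (ser N).map (m.comp m').act = (ser N).map m.act := by
  ext f
  simp only [AddSubgroup.mem_map, comp_act]
  constructor
  · rintro ⟨g, hg, rfl⟩
    exact ⟨_, h.act_mem hg, rfl⟩
  · rintro ⟨g, hg, rfl⟩
    obtain ⟨g', h1, rfl⟩ := h.act_surj hg
    exact ⟨g', h1, rfl⟩

theorem one_comp (m : Mv k L) : one.comp m = m := ext' (fun _ => rfl) (by simp)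



end Mv

theorem rat_smul {F : Type} [Field F] [Algebra ℂ F] [Algebra ℚ F] (c : ℚ) (a : F) :
    c • a = (c : ℂ) • a := by
  rw [Algebra.smul_def, Algebra.smul_def, eq_ratCast, map_ratCast]

theorem mv_of_h2 (H : H2Stmt) : MvStmt := by
  intro F _ _ Γ S b hΓ M hM h0 η ⟨r, hr⟩
  have : CharZero F := charZero_of_injective_algebraMap (algebraMap ℂ F).injective
  obtain ⟨m₁, m₂, p1, p2, p3, d1, d2⟩ := cocycle (k := ℂ) (fun x : Pts S.P => oR x)
    (fun x => nS M x)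
    (fun x c a ha => by rw [rat_smul]; exact (lp x).O.smul_mem ha _)
    (fun x c a ha => by rw [rat_smul]; exact smul_mem_nS _ ha)
    (U S 0 ∩ U S 1) (U S 1 ∩ U S 2) (U S 0 ∩ U S 2) {x | ∀ a, x ∈ U S a}
    (fun x hx => ⟨hx 0, hx 1⟩) (fun x hx => ⟨hx 1, hx 2⟩) (fun x hx => ⟨hx 0, hx 2⟩)
    (fun D r h => by
      obtain ⟨a1, a2, a3, b1, b2, b3, c1, c2, c3, e⟩ := H F Γ S b hΓ M hM h0 D r h
      exact ⟨a1, a2, a3, b1, b2, b3, fun x hx => c1 x hx.1 hx.2, fun x hx => c2 x hx.1 hx.2,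
        fun x hx => c3 x hx.1 hx.2, e⟩)
    (κ₀₁ := η 0 - η 1) (κ₁₂ := η 1 - η 2) (r₀₁ := r 0 - r 1) (r₁₂ := r 1 - r 2)
    (fun x hx => hr 0 1 x hx.1 hx.2) (fun x hx => hr 1 2 x hx.1 hx.2)
    (fun x hx => by
      rw [show η 1 - η 2 + (η 0 - η 1) = η 0 - η 2 by abel,
        show r 1 - r 2 + (r 0 - r 1) = r 0 - r 2 by ring]
      exact hr 0 2 x hx.1 hx.2)
  have r01 := fun x h0 h1 => (p1 x ⟨h0, h1⟩).map_ring m₂
  have r12 := fun x h0 h1 => (p2 x ⟨h0, h1⟩).map_ring Mv.one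
  have r02 := fun x h0 h1 => (p3 x ⟨h0, h1⟩).map_ring Mv.one
  have s01 := fun x h0 h1 => (p1 x ⟨h0, h1⟩).map_sec m₂
  have s12 := fun x h0 h1 => (p2 x ⟨h0, h1⟩).map_sec Mv.one
  have s02 := fun x h0 h1 => (p3 x ⟨h0, h1⟩).map_sec Mv.one
  simp only [Mv.one_comp] at r12 r02 s12 s02
  refine ⟨⟨![m₂.comp m₁, m₂, Mv.one], fun a b x ha hb => ?_, fun a b x ha hb => ?_,
    fun a => η a - η 2, fun a => r a - r 2, fun a => ?_⟩, fun _ => rfl⟩
  · fin_cases a <;> fin_cases b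
    exacts [rfl, r01 x ha hb, r02 x ha hb, (r01 x hb ha).symm, rfl, r12 x ha hb,
      (r02 x hb ha).symm, (r12 x hb ha).symm, rfl]
  · fin_cases a <;> fin_cases b
    exacts [rfl, s01 x ha hb, s02 x ha hb, (s01 x hb ha).symm, rfl, s12 x ha hb,
      (s02 x hb ha).symm, (s12 x hb ha).symm, rfl]
  · fin_cases a
    · have := d2.comp d1
      rw [Mv.one_comp, show η 1 - η 2 + (η 0 - η 1) = η 0 - η 2 by abel,
        show r 1 - r 2 + (r 0 - r 1) = r 0 - r 2 by ring] at this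
      exact this
    · exact d2
    · have := Mv.df_zero.2 (Mv.Cg.refl (1 + 1) (Mv.one : Mv ℂ F))
      simpa using this

end Crest.Agent.X262.Mv99
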